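import Crest.Agent.X212.Rf65.Pr

/-!
# Row 212, RF-KD (helper42): the core and additivity outside a wall with flat fillers
-/

set_option autoImplicit false
set_option linter.unusedSectionVars false
noncomputable section
open scoped Manifold ContDiff Topology InnerProductSpace
open MeasureTheory Set Function Filter

namespace Crest.Agent.X212.Kd42
open An M Nd18 Mod61 Nk89 Cht98 Rdc90 G75 Ins26 Rf65

section sys
variable {X A : Type} [TopologicalSpace X] [PreconnectedSpace X] {S : Sys X A} {c : Set A}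
  {R : A} {π ρ : Reg A}

theorem band_not {a : A} {b : Bool} (h : (S.w a).band ⊆ (S.w R).sd b)
    (h' : (S.w a).band ⊆ (S.w R).sd (!b)) : False :=
  let ⟨_, hx⟩ := (S.w a).ne true
  (S.w R).not_mem_sd (h hx.1) (h' hx.1)

/-- nothing is broken inside `R` -/
theorem eq_none (ho : ∀ a ∈ c, a = R ∨ (S.w a).band ⊆ (S.w R).sd true) (h : S.Piece c π)
    (hR : π R = some false) {a : A} (ha : a ≠ R) : π a = none := by
  by_contra k
  exact band_not (b := false) (h.toIsReg.band_subset ha hR k)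
    ((ho a (h.bd_subset k)).resolve_left ha)

theorem U_eq (ho : ∀ a ∈ c, a = R ∨ (S.w a).band ⊆ (S.w R).sd true) (h : S.Piece c π)
    (hR : π R = some false) : S.U π = (S.w R).sd false := by
  refine Subset.antisymm (fun x hx => hx R _ hR) fun x hx a b hb => ?_
  by_cases e : a = R
  · subst e; rwa [← Option.some.inj (hR.symm.trans hb)]
  · rw [eq_none ho h hR e] at hb; cases hb

theorem out_or [Nonempty X] (hc : S.Cell c) (hm : R ∈ c)
    (ho : ∀ a ∈ c, a = R ∨ (S.w a).band ⊆ (S.w R).sd true) (h : S.Piece c π)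
    (hR : π R = some false) (h' : S.Piece c ρ) : S.U ρ ⊆ (S.w R).sd true ∨ ρ = π := by
  obtain ⟨_ | _, k⟩ := h'.side hc hm
  · obtain ⟨x, hx⟩ := h'.toIsReg.nonempty
    exact .inr (h'.unique hc h hx (U_eq ho h hR ▸ k hx))
  · exact .inl k

/-- the pieces at an inner wall of `π₀` lie in `π₀` -/
theorem sub_of_inn {c₀ : Set A} {π₀ : Reg A} (hc : S.Cell c) (hs : c₀ ⊆ c) (h₀ : S.Piece c₀ π₀)
    (hi : R ∈ S.inn π₀) (h : S.Piece c π) {b : Bool} (hR : π R = some b) : S.U π ⊆ S.U π₀ :=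
  let ⟨_, hx⟩ := (S.w R).ne b
  (h₀.sub h.toIsReg (hc.mono (union_subset hs h.bd_subset)) (fun a ha => h.not_inn a (hs ha))
    (hi.2.1 hx.1) (h.adj R b hR hx)).subset

end sys

section job
variable {Wi : Type} {X : Mf 4} {A κ lam : Type} [Fintype A] [Fintype κ] [Fintype lam]
  [DecidableEq lam] {M : Mark X A κ} {W : World M} {N : ML M lam} {Λ : Lns W N}
  {A' h : Type} [Fintype A'] [DecidableEq A'] [Fintype h] {r n : ℕ}
  {J : Job Wi Λ A' h r n} {c : M.Cl} {z : J.Obc c} {π : Reg A}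

theorem fl_kap (h : Fl z π) : z.kap (W.pc c π) = 0 :=
  setIntegral_eq_zero_of_forall_eq_zero fun x hx => by
    simp only [Job.Obc.kd, Md.kd, h x hx, inner_zero_left, mul_zero]

theorem fl_ea (hπ : π ∈ Pc c) (h : Fl z π) (ε : ℝ) : EA ε z π := by
  refine ⟨(integrableOn_zero).congr_fun (fun x hx => by simp [h x hx])
    (Cyl58.isOpen_pc W.toCaps hπ).measurableSet, ?_⟩
  rw [setIntegral_eq_zero_of_forall_eq_zero fun x hx => by simp [h x hx],
    setIntegral_eq_zero_of_forall_eq_zero fun x hx => by simp [h x hx], mul_zero]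

theorem du_ge (y : J.Obc c) (a : A) : -1 ≤ du y a := by
  unfold du; split_ifs <;> omega

end job

variable {κ lam : Type} [Fintype κ] [Fintype lam] [DecidableEq lam] {Lm : LM κ lam}
  {S : Scene Lm} {D : S.Dat} {i : S.L} {Wi : Type} {r n : ℕ}
  {J : Job Wi (D.Λ i) (S.A ⊕ Unit) S.ls r n} {c : S.M.Cl} {X : Finset S.A} {j : ℕ} {n₀ : ℤ} {T : ℝ}

/-- the broken walls form a cell of the scene -/
theorem exists_cell (H : GX J X none j n₀ T) {σ : Cel (S.A ⊕ Unit)} (hσ : σ ∈ J.𝒦)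
    {s : S.A ⊕ Unit → ℝ} (hs : J.Ov σ c s) :
    ∃ τ o σ', σ = cel τ o ∧ τ ⊆ σ' ∧ σ' ∈ S.K i ∧ c.1 ⊆ ↑τ := by
  obtain ⟨τ, o, σ', rfl, h1, h2, -⟩ := H.cell σ hσ
  refine ⟨τ, o, σ', rfl, h1, h2, fun x hx => ?_⟩
  obtain ⟨a, ha, h3⟩ := H.ok.inf _ hσ s hs.1 x (hs.2.ge hx)
  rw [H.hd] at ha
  rcases a with a | a
  · obtain rfl : a = x := by
      simp only [Sum.elim_inl] at ha
      split_ifs at ha
      exact Option.some.inj ha
    by_contra k
    have := hs.1.1 (.inl a) false (by rw [cel_inl]; exact if_neg k)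
    rw [h3] at this
    simp [b01] at this
  · cases ha

variable {R : S.A}

theorem out_c (H : GX J X none j n₀ T) (hR : RWI S i R ∅ 0 0) (hm : R ∈ c.1)
    {σ : Cel (S.A ⊕ Unit)} (hσ : σ ∈ J.𝒦) {s : S.A ⊕ Unit → ℝ} (hs : J.Ov σ c s) :
    ∀ a ∈ c.1, a = R ∨ (S.M.sys.w a).band ⊆ (S.M.sys.w R).sd true := fun a ha => by
  obtain ⟨τ, o, σ', -, h1, h2, h3⟩ := exists_cell H hσ hs
  simpa using hR.out σ' h2 (h1 (h3 hm)) a (h1 (h3 ha))

/-- a lens wall is inside or outside `R` -/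
theorem ls_side (hS : S.OK) {θ ϖ} (hR : RW S i R θ ϖ) {l : S.A} (hl : l ∈ S.ls) {b : Bool}
    (h : (S.M.sys.w l).band ⊆ (S.M.sys.w R).sd b) : hf S.M l false ⊆ (S.M.sys.w R).sd b :=
  have := S.M.con
  Wall.nest (b := true) (hR.cmp l hl).symm
    (hS.lsi l hl R (fun e => hR.nl (e ▸ hl)) (hR.cmp l hl)) h

theorem ls_out (hS : S.OK) (hR : RWI S i R ∅ 0 0) {l : S.A} (hl : l ∈ S.ls) :
    hf S.M l false ⊆ (S.M.sys.w R).sd true := by
  obtain ⟨θ, ϖ, h⟩ := hR.rw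
  obtain ⟨_ | _, k⟩ := Wall.exists_side (h.cmp l hl)
  · have : l ∈ lsI S R := by
      simp only [lsI, Finset.mem_filter]; exact ⟨hl, ls_side hS h hl k⟩
    rw [Finset.card_eq_zero.1 hR.card] at this
    cases this
  · exact ls_side hS h hl k

theorem ado {δ : ℝ} (H : GX J X none j n₀ T) (hR : RWI S i R ∅ 0 0) (hm : R ∈ c.1)
    (hD : DfAt J c δ R) (hA : AddAt J c δ) : AdO J c δ R ∅ 0 0 := by
  classical
  intro σ hσ s hc hf c₀ π₀ e h₀ hi β sg l2 hN y γ P hy k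
  have := S.M.con
  have hs : J.Ov σ c s := ⟨⟨hc.1, fun a _ => (hc.2 a).2⟩, hf⟩
  obtain ⟨θ, ϖ, hw⟩ := hR.rw
  have ho := out_c H hR hm hσ hs
  have s₀ : c₀.1 ⊆ c.1 := e ▸ sep_subset _ _
  obtain ⟨π, ⟨hπ, pR⟩, -⟩ := S.M.sys.existsUnique_adj c.2 hm false
  obtain ⟨ρ₀, ⟨hρ, rR⟩, -⟩ := S.M.sys.existsUnique_adj c.2 hm true
  have mP : ∀ ρ, ρ ∈ P ↔ S.In c π₀ ρ ∧ S.M.sys.U ρ ⊆ (S.M.sys.w R).sd true := fun ρ => by
    simp [P, Ou]
  obtain ⟨h1, h2, h3⟩ := hy ρ₀ ((mP _).2 ⟨⟨hρ, sub_of_inn c.2 s₀ h₀ hi hρ rR⟩, fun x hx => hx R _ rR⟩)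
  obtain ⟨z, z1, z2, z3, -, z5⟩ := hD.ex σ hσ (y ρ₀) π (γ R) (h1 ▸ hc) (h1 ▸ hf) hπ pR h2.adm
    (h3 R ⟨hm, hw.np⟩ _ rR).1
  obtain ⟨i1, i2⟩ := hD.ix σ hσ z π (z1 ▸ h1 ▸ hc) (z1 ▸ h1 ▸ hf) hπ pR z2 z3
  have nP : π ∉ P := fun k => by
    obtain ⟨x, hx⟩ := hπ.toIsReg.nonempty
    exact (S.M.sys.w R).not_mem_sd (((mP _).1 k).2 hx) (hx R _ pR)
  have eP : {ρ | S.In c π₀ ρ} = insert π P := Set.ext fun ρ =>
    ⟨fun k => (out_or c.2 hm ho hπ pR k.1).elim (fun k' => .inr ((mP _).2 ⟨k, k'⟩)) .inl, by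
      rintro (rfl | k)
      exacts [⟨hπ, sub_of_inn c.2 s₀ h₀ hi hπ pR⟩, ((mP _).1 k).1]⟩
  have up : ∀ ρ ∈ P, update y π z ρ = y ρ := fun ρ k => update_of_ne (by rintro rfl; exact nP k) _ _
  have := hA σ hσ s hs c₀ π₀ e h₀ β sg l2 hN (update y π z) γ fun ρ k => by
    rcases eP.le k with rfl | k
    · rw [update_self]
      refine ⟨z1.trans h1, z2, fun a _ b hb => ?_⟩
      obtain rfl : a = R := by
        by_contra k; rw [eq_none ho hπ pR k] at hb; cases hb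
      obtain rfl : false = b := Option.some.inj (pR.symm.trans hb)
      exact ⟨(h3 a ⟨hm, hw.np⟩ _ rR).1, z5⟩
    · rw [up ρ k]; exact hy ρ k
  have sm : ∀ f : J.Obc c → Reg S.A → ℝ, f z π = 0 →
      ∑ᶠ ρ ∈ insert π P, f (update y π z ρ) ρ = ∑ᶠ ρ ∈ P, f (y ρ) ρ := fun f hf => by
    rw [finsum_mem_insert _ nP (toFinite _), update_self, hf, zero_add]
    exact finsum_mem_congr rfl fun ρ k => by rw [up ρ k]
  rw [eP] at this
  simp only [sm (fun y ρ => y.kap (D.W.pc c ρ)) (fl_kap z3),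
    sm (fun y ρ => (ia δ y ρ : ℝ)) (by simp [i1]), sm (fun y ρ => (idr δ y ρ : ℝ)) (by simp [i2])]
    at this
  simpa [Rf65.zc, k] using this

theorem kc {δ ε K₀ k₁ : ℝ} {sh : Set (S.A ⊕ Unit)} {σ : Cel (S.A ⊕ Unit)}
    (H : GX J X none j n₀ T) (hR : RWI S i R ∅ 0 0) (hm : R ∈ c.1) (hD : DfAt J c δ R)
    (hσ : σ ∈ J.𝒦) (hK : KcAt J c δ ε K₀ sh σ none j k₁) : KcAt J c δ ε K₀ sh σ (some R) j k₁ := by
  classical
  intro y F f lo g p B
  have := S.M.con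
  obtain ⟨θ, ϖ, hw⟩ := hR.rw
  have hs : J.Ov σ c y.s := ⟨⟨p.cell.1, fun a _ => (p.cell.2 a).2⟩, p.inf⟩
  have ho := out_c H hR hm hσ hs
  have cR : R ∈ cylW c := ⟨hm, hw.np⟩
  obtain ⟨π, ⟨hπ, pR⟩, -⟩ := S.M.sys.existsUnique_adj c.2 hm false
  obtain ⟨ρ₀, ⟨hρ, rR⟩, -⟩ := S.M.sys.existsUnique_adj c.2 hm true
  have eR : Rl none c = Rl (some R) c := Set.ext fun ρ =>
    ⟨fun k => ⟨k.1, fun a ha => by
        obtain rfl : R = a := Option.some.inj ha
        exact (out_or c.2 hm ho hπ pR k.1).resolve_right fun e => k.2.2 R cR (e ▸ pR), k.2.2⟩,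
      fun k => ⟨k.1, fun _ ha => (by cases ha), k.2.2⟩⟩
  have g₀ := p.go ρ₀ (eR ▸ ⟨hρ, fun _ ha => (by cases ha), fun a ha k => by
    by_cases e : R = a
    · subst e; rw [rR] at k; cases k
    · exact band_not (b := false) (hρ.toIsReg.band_subset e k (Sys.mem_bd_of rR))
        (p.nn a ha R cR (Ne.symm e))⟩)
  obtain ⟨z, z1, z2, z3, z4, z5⟩ := hD.ex σ hσ y π (y.β R true) p.cell p.inf hπ pR g₀.adm
    (g₀.bs (⟨R, cR⟩, true) ⟨ρ₀, rfl, rR⟩)
  obtain ⟨i1, i2⟩ := hD.ix σ hσ z π (z1 ▸ p.cell) (z1 ▸ p.inf) hπ pR z2 z3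
  have d0 : drp y R = 0 := if_neg fun ⟨k, _⟩ => hw.nl k
  let f' : Fls J c := ⟨update f.ι R π, update f.z R z, update f.e R 0⟩
  have p' : Pre δ ε K₀ sh σ none k₁ y F f' lo g := by
    refine ⟨p.cell, p.inf, fun _ ha => (by cases ha), p.nn, eR ▸ p.sub, eR ▸ p.go, eR ▸ p.tri,
      fun a ha _ => ?_, ?_, ?_⟩
    · by_cases e : a = R
      · subst e
        simp only [f', update_self, if_neg hw.nl, i1, d0]
        refine ⟨hπ, pR, fun l hl k => band_not (b := false) (U_eq ho hπ pR ▸ k.2.1)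
          (subset_union_right.trans (ls_out H.sc hR hl)),
          ⟨z1, z2, .inr z3, fl_ea hπ z3 ε, z4, (fl_kap z3).ge, z5⟩, ?_⟩
        have := du_ge y a
        omega
      · simp only [f', update_of_ne e]
        exact p.fil a ha fun k => e (Option.some.inj k).symm
    · rw [eR, ← p.lev, show {a ∈ cylW c | a ∉ (none : Option S.A)} =
          insert R {a ∈ cylW c | a ∉ some R} from Set.ext fun a => by
            by_cases e : R = a
            exacts [by simp [← e, cR], by simp [e, Ne.symm e]],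
        finsum_mem_insert _ (by simp) (toFinite _)]
      simp only [f', update_self, fl_kap z3, Nat.cast_zero, zero_add]
      congr 3
      exact finsum_mem_congr rfl fun a ha => by
        simp only [update_of_ne fun e : a = R => ha.2 (e ▸ rfl)]
    · refine le_of_eq_of_le (congrArg _ (Set.ext fun l => and_congr_right fun _ =>
        and_congr_right fun _ => ⟨fun _ a ha => ?_, fun _ _ ha => (by cases ha)⟩)) p.drop
      obtain rfl : R = a := Option.some.inj ha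
      exact subset_union_left.trans (ls_out H.sc hR l.2)
  have ec : cost δ none y f' = cost δ (some R) y f := funext fun a => by
    by_cases e : a = R
    · subst e
      simp [cost, f', i1, i2, d0, hw.nl]
    · simp [cost, f', e, Ne.symm e]
  have := hK y F f' lo g p'
  rw [ec, eR] at this
  exact this.imp_right fun k => ⟨fun a ha hp _ => k.1 a ha hp fun _ h => (by cases h), k.2⟩

variable (Lm) in
/-- **LEAF KD** -/
theorem kd : KdStmt Lm := fun _ _ _ _ _ _ _ _ _ _ _ _ _ H hR hm hD =>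
  ⟨ado H hR hm hD, fun _ _ _ hσ => kc H hR hm hD hσ⟩

end Crest.Agent.X212.Kd42
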